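import Vale.Agent.P144Z.Cl
import Vale.Agent.P144Z.KP.Gas
import Vale.Agent.P144Z.KP.Mob
import Vale.Agent.P144Z.KP.NSub

/-!
# The theorem of Kotecky and Preiss for a system of local norms
-/

namespace Vale.Agent.P144Z

open Finset

namespace B3

open KP

/-- Induction along a family without a nontrivial cut. -/
theorem cut_induction {K : Type*} [DecidableEq K] {R : K → K → Prop} {C : Finset K}
    (hC : C.Nonempty) (hcut : ∀ D ⊆ C, D.Nonempty → D ≠ C → ∃ u ∈ D, ∃ v ∈ C, v ∉ D ∧ R u v)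
    (Q : Finset K → Prop) (h1 : ∀ v ∈ C, Q {v})
    (hs : ∀ D ⊆ C, Q D → ∀ u ∈ D, ∀ v ∈ C, v ∉ D → R u v → Q (insert v D)) : Q C := by
  have key : ∀ n, n < C.card → ∃ D ⊆ C, D.card = n + 1 ∧ Q D := by
    intro n
    induction n with
    | zero =>
      intro _
      obtain ⟨v, hv⟩ := hC
      exact ⟨{v}, singleton_subset_iff.2 hv, card_singleton v, h1 v hv⟩
    | succ n ih =>
      intro hn
      obtain ⟨D, hD, hc, hQ⟩ := ih (by omega)
      obtain ⟨u, hu, v, hv, hvD, hR⟩ := hcut D hD (card_pos.1 (by omega)) fun h => by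
        rw [h] at hc; omega
      exact ⟨insert v D, insert_subset hv hD, by rw [card_insert_of_notMem hvD, hc],
        hs D hD hQ u hu v hv hvD hR⟩
  obtain ⟨D, hD, hc, hQ⟩ := key (C.card - 1) (by have := card_pos.2 hC; omega)
  rwa [eq_of_subset_of_card_le hD (by have := card_pos.2 hC; omega)] at hQ

theorem Z_ite {K A : Type*} [DecidableEq K] [CommRing A] (R : K → K → Prop) (w : K → A)
    (L B : Finset K) : Z R (fun v => if v ∈ B then w v else 0) L = Z R w (L ∩ B) := by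
  rw [Z, Z]
  symm
  refine sum_subset_zero_on_sdiff (fun I hI => ?_) (fun I hI => ?_) fun I hI => ?_
  · exact mem_Cpt.2 ⟨(mem_Cpt.1 hI).1.trans inter_subset_left, (mem_Cpt.1 hI).2⟩
  · obtain ⟨h1, h2⟩ := mem_sdiff.1 hI
    have h3 : ¬ I ⊆ B := fun h =>
      h2 (mem_Cpt.2 ⟨subset_inter (mem_Cpt.1 h1).1 h, (mem_Cpt.1 h1).2⟩)
    obtain ⟨v, hv, hvB⟩ := not_subset.1 h3
    exact prod_eq_zero hv (if_neg hvB)
  · exact prod_congr rfl fun v hv => (if_pos (mem_inter.1 ((mem_Cpt.1 hI).1 hv)).2).symm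

theorem map_Z {K A B F : Type*} [CommRing A] [CommRing B] [FunLike F A B] [RingHomClass F A B]
    (f : F) (R : K → K → Prop) (w : K → A) (L : Finset K) :
    f (Z R w L) = Z R (fun v => f (w v)) L := by
  simp only [Z, map_sum, map_prod]

variable {P : Type} [Fintype P] [DecidableEq P]
variable {𝒜 : Type} [NormedCommRing 𝒜] [NormedAlgebra ℝ 𝒜]

omit [Fintype P] [DecidableEq P] in
theorem p_zero (L : LocSys P 𝒜) (X : Finset P) : L.p X 0 = 0 := by
  have h := L.p_smul X 0 0
  simpa using h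

omit [Fintype P] [DecidableEq P] in
theorem p_sum_le (L : LocSys P 𝒜) (X : Finset P) {ι : Type*} (s : Finset ι) (f : ι → 𝒜) :
    L.p X (∑ i ∈ s, f i) ≤ ∑ i ∈ s, L.p X (f i) :=
  le_sum_of_subadditive (L.p X) (p_zero L X).le (L.p_add X) s f

/-- Functions of families of sets whose Moebius coefficients are local, with the weighted norm. -/
noncomputable def famNorm (L : LocSys P 𝒜) (ω : Wt (Finset P)) :
    AlgNorm (Finset (Finset P) → 𝒜) where
  R :=
    { carrier := {F | ∀ C, mu F C ∈ L.sub (C.biUnion id)}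
      mul_mem' := fun {F G} hF hG C => by
        change mu (fun B => F B * G B) C ∈ _
        rw [mu_mul F G (subset_univ C)]
        refine sum_mem fun q hq => ?_
        rw [← (mem_filter.1 hq).2]
        exact mul_mem (L.mono (biUnion_subset_biUnion_of_subset_left _ subset_union_left) (hF _))
          (L.mono (biUnion_subset_biUnion_of_subset_left _ subset_union_right) (hG _))
      add_mem' := fun {F G} hF hG C => by
        change mu (fun B => F B + G B) C ∈ _
        rw [mu_add]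
        exact add_mem (hF C) (hG C)
      algebraMap_mem' := fun r C => mu_mem _ fun _ _ => algebraMap_mem _ r }
  N F := ∑ C, ω.toFun C * L.p (C.biUnion id) (mu F C)
  add_le F _ G _ := by
    rw [← sum_add_distrib]
    refine sum_le_sum fun C _ => ?_
    change _ * L.p _ (mu (fun B => F B + G B) C) ≤ _
    rw [mu_add, ← mul_add]
    exact mul_le_mul_of_nonneg_left (L.p_add _ _ _) (zero_le_one.trans (ω.one_le C))
  smul_eq c F _ := by
    rw [mul_sum]
    refine sum_congr rfl fun C _ => ?_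
    change _ * L.p _ (mu (fun B => c • F B) C) = _
    rw [mu_smul, L.p_smul, mul_left_comm]
  mul_le F hF G hG := by
    rw [sum_mul_sum, ← sum_product',
      ← sum_fiberwise_of_maps_to (s := univ ×ˢ univ) (t := univ)
        (g := fun q : Finset (Finset P) × Finset (Finset P) => q.1 ∪ q.2) (fun _ _ => mem_univ _)]
    refine sum_le_sum fun C _ => ?_
    change _ * L.p _ (mu (fun B => F B * G B) C) ≤ _
    rw [mu_mul F G (subset_univ C), powerset_univ]
    refine (mul_le_mul_of_nonneg_left (p_sum_le L _ _ _)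
      (zero_le_one.trans (ω.one_le C))).trans ?_
    rw [mul_sum]
    refine sum_le_sum fun q hq => ?_
    rw [← (mem_filter.1 hq).2, mul_mul_mul_comm]
    refine mul_le_mul (ω.union_le _ _) ((L.p_mul _ _ _).trans ?_) (L.p_nonneg _ _)
      (mul_nonneg (zero_le_one.trans (ω.one_le _)) (zero_le_one.trans (ω.one_le _)))
    exact mul_le_mul
      (L.p_mono (biUnion_subset_biUnion_of_subset_left _ subset_union_left) (hF _))
      (L.p_mono (biUnion_subset_biUnion_of_subset_left _ subset_union_right) (hG _))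
      (L.p_nonneg _ _) (L.p_nonneg _ _)
  eq_zero F hF h := by
    rw [sum_eq_zero_iff_of_nonneg fun C _ =>
      mul_nonneg (zero_le_one.trans (ω.one_le _)) (L.p_nonneg _ _)] at h
    funext B
    rw [← sum_mu F B]
    refine sum_eq_zero fun C _ => L.p_def (hF C) ?_
    exact (mul_eq_zero.1 (h C (mem_univ C))).resolve_left (zero_lt_one.trans_le (ω.one_le C)).ne'

theorem lift_mem (L : LocSys P 𝒜) (ω : Wt (Finset P)) {φ : Finset P → 𝒜}
    (hφ : ∀ Y, φ Y ∈ L.sub Y) (Y : Finset P) :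
    (fun B : Finset (Finset P) => if {Y} ⊆ B then φ Y else 0) ∈ (famNorm L ω).R := by
  intro C
  rw [mu_ite]
  split_ifs with h
  · rw [h, singleton_biUnion]; exact hφ Y
  · exact zero_mem _

theorem norm_lift (L : LocSys P 𝒜) (ω : Wt (Finset P)) {φ : Finset P → 𝒜}
    (hφ : ∀ Y, φ Y ∈ L.sub Y) (Y : Finset P) :
    ‖(famNorm L ω).elt _ (lift_mem L ω hφ Y)‖ = ω.toFun {Y} * L.p Y (φ Y) := by
  rw [AlgNorm.norm_def, AlgNorm.val_elt]
  change ∑ C, ω.toFun C * L.p (C.biUnion id) (mu _ C) = _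
  rw [sum_eq_single {Y}]
  · rw [mu_ite, if_pos rfl, singleton_biUnion, id]
  · intro C _ hC
    rw [mu_ite, if_neg hC, p_zero, mul_zero]
  · exact fun h => absurd (mem_univ _) h

omit [Fintype P] in
theorem touch_symm (Z : Size P) {X Y : Finset P} (h : Z.touch X Y) : Z.touch Y X := by
  obtain ⟨x, hx, y, hy, h⟩ := h
  exact ⟨y, hy, x, hx, Z.symm h⟩

omit [Fintype P] in
theorem touch_biUnion (Z : Size P) {C : Finset (Finset P)} {Y : Finset P} :
    Z.touch (C.biUnion id) Y ↔ ∃ X ∈ C, Z.touch X Y := by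
  constructor
  · rintro ⟨x, hx, y, hy, h⟩
    obtain ⟨X, hX, hxX⟩ := mem_biUnion.1 hx
    exact ⟨X, hX, x, hxX, y, hy, h⟩
  · rintro ⟨X, hX, x, hx, y, hy, h⟩
    exact ⟨x, mem_biUnion.2 ⟨X, hX, hx⟩, y, hy, h⟩

omit [Fintype P] in
theorem sz_biUnion_le (Z : Size P) {C : Finset (Finset P)} (hC : C.Nonempty)
    (hcut : ∀ D ⊆ C, D.Nonempty → D ≠ C → ∃ u ∈ D, ∃ v ∈ C, v ∉ D ∧ Z.touch u v) :
    Z.sz (C.biUnion id) ≤ ∑ X ∈ C, Z.sz X := by
  refine cut_induction hC hcut (fun D => Z.sz (D.biUnion id) ≤ ∑ X ∈ D, Z.sz X)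
    (fun v _ => by simp) fun D _ hQ u hu v _ hvD hR => ?_
  rw [biUnion_insert, sum_insert hvD]
  exact (Z.union_le (touch_symm Z ((touch_biUnion Z).2 ⟨u, hu, hR⟩))).trans
    (add_le_add le_rfl hQ)

open Classical in
theorem dob (Z : Size P) {B : Type*} [NormedCommRing B] {w : Finset P → B} {u : Finset P → ℝ}
    {ε : ℝ} (hu : ∀ Y, ‖w Y‖ = u Y) (h0 : u ∅ = 0) (hε : ε ≤ 1 / 8)
    (hle : Z.Le 1 u ε) : Dob Z.touch w univ fun Y => u Y * Real.exp (Z.sz Y / 2) := by
  have hu0 : ∀ Y, 0 ≤ u Y := fun Y => hu Y ▸ norm_nonneg _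
  have hsz : ∀ Y, 0 ≤ Z.sz Y := fun Y => zero_le_one.trans (Z.one_le Y)
  have hb : ∀ Y, u Y * Real.exp (Z.sz Y / 2) ≤ u Y * Real.exp (1 * Z.sz Y) := fun Y =>
    mul_le_mul_of_nonneg_left (Real.exp_le_exp.2 (by linarith [hsz Y])) (hu0 Y)
  have hself : ∀ Y, Y ≠ ∅ → Y ∈ univ.filter fun X => Z.touch X Y := fun Y hY => by
    obtain ⟨y, hy⟩ := nonempty_iff_ne_empty.2 hY
    exact mem_filter.2 ⟨mem_univ _, y, hy, y, hy, Z.refl y⟩
  refine ⟨fun _ _ => touch_symm Z, fun Y _ => mul_nonneg (hu0 Y) (Real.exp_pos _).le,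
    fun Y _ => ?_, fun Y _ => ?_⟩
  · by_cases hY : Y = ∅
    · rw [hY, h0]; norm_num
    have h1 : u Y * Real.exp (1 * Z.sz Y) ≤ ε * Z.sz Y :=
      le_trans (single_le_sum (f := fun X => u X * Real.exp (1 * Z.sz X))
        (fun X _ => mul_nonneg (hu0 X) (Real.exp_pos _).le) (hself Y hY)) (hle Y)
    have h2 : Real.exp (1 * Z.sz Y) = Real.exp (Z.sz Y / 2) * Real.exp (Z.sz Y / 2) := by
      rw [← Real.exp_add]; congr 1; ring
    have h3 := Real.add_one_le_exp (Z.sz Y / 2)
    have h4 : ε * Z.sz Y ≤ 1 / 4 * Real.exp (Z.sz Y / 2) := by nlinarith [hsz Y]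
    rw [h2, ← mul_assoc] at h1
    exact le_of_mul_le_mul_right (h1.trans h4) (Real.exp_pos _)
  · rw [hu]
    by_cases hY : Y = ∅
    · rw [hY, h0]; simp
    have h1 : u Y * Real.exp (Z.sz Y / 2) + ∑ X ∈ Inc Z.touch Y univ, u X * Real.exp (Z.sz X / 2)
        ≤ Z.sz Y / 2 := by
      have h2 : Inc Z.touch Y univ = (univ.filter fun X => Z.touch X Y).erase Y := by
        ext X
        simp only [mem_Inc, mem_erase, mem_filter, mem_univ, true_and]
      rw [h2, add_sum_erase _ (fun X => u X * Real.exp (Z.sz X / 2)) (hself Y hY)]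
      refine ((sum_le_sum fun X _ => hb X).trans (hle Y)).trans ?_
      nlinarith [hsz Y]
    refine le_trans ?_ (mul_exp_neg_le _)
    rw [mul_assoc, ← Real.exp_add]
    exact mul_le_mul_of_nonneg_left (Real.exp_le_exp.2 (by linarith)) (hu0 Y)

end B3

open KP B3

variable {P : Type} [Fintype P] [DecidableEq P]
variable {𝒜' : Type} [NormedCommRing 𝒜'] [NormedAlgebra ℝ 𝒜'] [FiniteDimensional ℝ 𝒜']

open Classical in
/-- B3: the theorem of Kotecky and Preiss. -/
theorem kp (hinj : Function.Injective (NormedSpace.exp : 𝒜' → 𝒜')) (Z : Size P)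
    (L' : LocSys P 𝒜') {τ ε : ℝ} (hτ : 0 ≤ τ) {φ : Finset P → 𝒜'} (h0 : φ ∅ = 0)
    (hφ : ∀ Y, φ Y ∈ L'.sub Y) (hε : ε ≤ 1 / 8)
    (hle : Z.Le (τ + 1) (fun Y => L'.p Y (φ Y)) ε) :
    ∃ G : Finset P → 𝒜', G ∅ = 0 ∧ (∀ U, G U ∈ L'.sub U) ∧
      Z.Le τ (fun U => L'.p U (G U)) (2 * ε) ∧
      ∀ Λ : Finset P, NormedSpace.exp (∑ U ∈ Λ.powerset, G U) =
        ∑ 𝒴 ∈ Λ.powerset.powerset.filter
          (fun 𝒴 => ∀ Y ∈ 𝒴, ∀ Y' ∈ 𝒴, Y ≠ Y' → ¬ Z.touch Y Y'), ∏ Y ∈ 𝒴, φ Y := by
  have : CompleteSpace 𝒜' := FiniteDimensional.complete ℝ 𝒜'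
  have hsz : ∀ Y, 0 ≤ Z.sz Y := fun Y => zero_le_one.trans (Z.one_le Y)
  let ω : Wt (Finset P) := Wt.prod (fun Y => Real.exp (τ * Z.sz Y))
    fun Y => Real.one_le_exp (mul_nonneg hτ (hsz Y))
  have hω : ∀ C, ω.toFun C = Real.exp (τ * ∑ X ∈ C, Z.sz X) := fun C => by
    rw [mul_sum, Real.exp_sum]; rfl
  let n := famNorm L' ω
  let w : Finset P → n.T := fun Y => n.elt _ (lift_mem L' ω hφ Y)
  let u : Finset P → ℝ := fun Y => L'.p Y (φ Y) * Real.exp (τ * Z.sz Y)
  have hu : ∀ Y, ‖w Y‖ = u Y := fun Y => by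
    rw [norm_lift L' ω hφ Y, hω, sum_singleton, mul_comm]
  have hle1 : Z.Le 1 u ε := fun Y => by
    refine le_trans (le_of_eq (sum_congr rfl fun X _ => ?_)) (hle Y)
    simp only [u]
    rw [mul_assoc, ← Real.exp_add, ← add_mul]
  have hD := dob Z hu (by simp only [u]; rw [h0, p_zero, zero_mul]) hε hle1
  let ev : Finset (Finset P) → (n.T →ₐ[ℝ] 𝒜') := fun B =>
    (Pi.evalAlgHom ℝ (fun _ : Finset (Finset P) => 𝒜') B).comp n.val
  have hev : ∀ B x, ev B x = n.val x B := fun _ _ => rfl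
  have hexp : ∀ M B, NormedSpace.exp (n.val (ell Z.touch w M) B) = KP.Z Z.touch φ (M ∩ B) := by
    intro M B
    rw [← hev, ← n.map_exp, hD.exp_ell (subset_univ M), map_Z, ← Z_ite]
    congr 1
    funext Y
    rw [hev]
    simp only [w, AlgNorm.val_elt, singleton_subset_iff]
  set g : Finset (Finset P) → 𝒜' := n.val (ell Z.touch w univ) with hg
  have hgexp : ∀ B, NormedSpace.exp (g B) = KP.Z Z.touch φ B := fun B => by
    rw [hg, hexp, univ_inter]
  have hval : ∀ M B, n.val (ell Z.touch w M) B = g (B ∩ M) := fun M B =>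
    hinj (by rw [hexp, hgexp, inter_comm])
  have hmem : ∀ C, mu g C ∈ L'.sub (C.biUnion id) := n.val_mem (ell Z.touch w univ)
  have hg0 : g ∅ = 0 := hinj (by rw [hgexp, Z_empty, NormedSpace.exp_zero])
  have hw0 : w ∅ = 0 := n.val_injective (by
    funext B
    simp only [w, AlgNorm.val_elt, h0, ite_self, map_zero, Pi.zero_apply])
  have hcut : ∀ C, mu g C ≠ 0 → ∀ D ⊆ C, D.Nonempty → D ≠ C →
      ∃ u ∈ D, ∃ v ∈ C, v ∉ D ∧ Z.touch u v := by
    intro C hC D hDC hD0 hne
    by_contra hcon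
    push Not at hcon
    refine hC (mu_eq_zero_of_split (X₁ := D) (X₂ := C \ D) g g
      (fun h => hne (Subset.antisymm hDC h)) (fun h => ?_) fun B hB => ?_)
    · obtain ⟨x, hx⟩ := hD0
      exact (mem_sdiff.1 (h (hDC hx))).2 hx
    · have h1 := hD.ell_union (L₁ := D) (L₂ := C \ D) (subset_univ _) (subset_univ _)
        disjoint_sdiff fun u hu v hv _ _ => hcon u hu v (mem_sdiff.1 hv).1 (mem_sdiff.1 hv).2
      have h2 := congrFun (congrArg n.val h1) B
      rw [map_add, Pi.add_apply, hval, hval, hval, union_sdiff_of_subset hDC,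
        inter_eq_left.2 hB] at h2
      exact h2
  have hempty : mu g {∅} = 0 := by
    have h1 := hD.ell_eq_of_zero (L := {∅}) (M := ∅) (subset_univ _) (empty_subset _)
      fun v hv _ => by rw [mem_singleton.1 hv, hw0]
    have h2 := congrFun (congrArg n.val h1) {∅}
    rw [hval, hval, inter_self, inter_empty, hg0] at h2
    have h3 := mu_insert g (a := (∅ : Finset P)) (C := ∅) (notMem_empty _)
    rw [mu_empty, mu_empty, insert_empty, h2, hg0, sub_zero] at h3
    exact h3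
  refine ⟨fun U => ∑ C ∈ univ.filter (fun C : Finset (Finset P) => C.biUnion id = U), mu g C,
    ?_, fun U => ?_, fun Y => ?_, fun Λ => ?_⟩
  · refine sum_eq_zero fun C hC => ?_
    have h1 : C ⊆ {∅} := fun X hX => mem_singleton.2 (subset_empty.1 (by
      rw [← (mem_filter.1 hC).2]
      exact subset_biUnion_of_mem id hX))
    rcases subset_singleton_iff.1 h1 with rfl | rfl
    · rw [mu_empty, hg0]
    · exact hempty
  · refine sum_mem fun C hC => ?_
    rw [← (mem_filter.1 hC).2]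
    exact hmem C
  · set M : Finset (Finset P) := univ.filter fun X => Z.touch X Y with hM
    have h1 := hD.norm_sub_le (L := univ) (M := univ \ M) Subset.rfl sdiff_subset
    rw [Finset.sdiff_sdiff_eq_self (subset_univ M)] at h1
    have h2 : ∑ X ∈ M, u X * Real.exp (Z.sz X / 2) ≤ ε * Z.sz Y := by
      refine le_trans (sum_le_sum fun X _ => ?_) (hle1 Y)
      exact mul_le_mul_of_nonneg_left (Real.exp_le_exp.2 (by linarith [hsz X]))
        (hu X ▸ norm_nonneg _)
    have h3 : ∀ C, mu (n.val (ell Z.touch w univ - ell Z.touch w (univ \ M))) C =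
        if Disjoint C M then 0 else mu g C := by
      intro C
      have h4 : n.val (ell Z.touch w univ - ell Z.touch w (univ \ M)) =
          fun B => g B - g (B \ M) := by
        funext B
        rw [map_sub, Pi.sub_apply, hval (univ \ M), ← inter_sdiff_assoc, inter_univ]
      rw [h4, mu_sub g (fun B => g (B \ M)), mu_sdiff]
      split_ifs
      · exact sub_self _
      · exact sub_zero _
    have hε0 : 0 ≤ ε * Z.sz Y := le_trans (norm_nonneg _) (h1.trans h2)
    refine le_trans ?_ ((h1.trans h2).trans (by linarith))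
    rw [AlgNorm.norm_def]
    change _ ≤ ∑ C, ω.toFun C * L'.p (C.biUnion id) (mu _ C)
    rw [← sum_fiberwise_of_maps_to (s := univ) (t := univ)
      (g := fun C : Finset (Finset P) => C.biUnion id) fun _ _ => mem_univ _]
    refine le_trans (sum_le_sum fun U hU => ?_) (sum_le_sum_of_subset_of_nonneg (subset_univ M)
      fun U _ _ => sum_nonneg fun C _ =>
        mul_nonneg (zero_le_one.trans (ω.one_le C)) (L'.p_nonneg _ _))
    refine (mul_le_mul_of_nonneg_right (p_sum_le L' U _ _) (Real.exp_pos _).le).trans ?_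
    rw [sum_mul]
    refine sum_le_sum fun C hC => ?_
    have hCU := (mem_filter.1 hC).2
    have hUY := (mem_filter.1 hU).2
    rw [← hCU] at hUY ⊢
    obtain ⟨X, hX, hXY⟩ := (touch_biUnion Z).1 hUY
    rw [h3, if_neg fun h => disjoint_left.1 h hX (mem_filter.2 ⟨mem_univ _, hXY⟩), mul_comm]
    by_cases hC0 : mu g C = 0
    · rw [hC0, p_zero, mul_zero, mul_zero]
    rw [hω]
    exact mul_le_mul_of_nonneg_right (Real.exp_le_exp.2 (mul_le_mul_of_nonneg_left
      (sz_biUnion_le Z ⟨X, hX⟩ (hcut C hC0)) hτ)) (L'.p_nonneg _ _)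
  · rw [sum_fiberwise_eq_sum_filter]
    have h1 : (univ.filter fun C : Finset (Finset P) => C.biUnion id ∈ Λ.powerset) =
        Λ.powerset.powerset := by
      ext C
      simp only [mem_filter, mem_univ, true_and, mem_powerset, biUnion_subset, id]
      exact ⟨fun h X hX => mem_powerset.2 (h X hX), fun h X hX => mem_powerset.1 (h hX)⟩
    rw [h1, sum_mu, hgexp, KP.Z]
    refine sum_congr ?_ fun _ _ => rfl
    ext I
    rw [mem_Cpt, mem_filter, mem_powerset]

end Vale.Agent.P144Z
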